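import Vale.Agent.P184L.JL2
import Vale.Agent.P053.LocalLemma

/-! Good assignments on finite sets. Hint for `exists_signs`: apply `Vale.Agent.P053.local_lemma` with variables `W × Fin Q`, `W` the subtype of `K.biUnion (ball n)`, events `v ∈ K` with support `ball n v × univ` of size `≤ D ^ n Q`; a variable lies in at most `D ^ n` supports; the counting probability is the iid probability (`iid_count` with `B = W`, `Equiv.curry`). `exists_col`: greedy induction on the finite set `K.biUnion (ball n)`: vertices at distance `≤ 2 n` get different colours. `bad_prob`: union bound, `iid_fst`, `iid_snd`. -/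

namespace Vale.Agent.P184L

open Finset MeasureTheory ProbabilityTheory Classical Vale.Agent.P184
open scoped ContDiff

noncomputable section

universe u

variable {G : Type u} [Group G]

variable {V : Type u} [DecidableEq V]

namespace LLLX

/-- Extension of an assignment on a finite set of variables. -/
def ext {J : Type u} {Q : ℕ} (W : Finset J) (f : W × Fin Q → Bool) : J → Fin Q → Bool :=
  fun j => if h : j ∈ W then Function.curry f ⟨j, h⟩ else fun _ => true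

theorem count {J : Type u} {Q : ℕ} {p : (J → Fin Q → Bool) → Prop} {W : Finset J}
    (hp : DependsOn p (W : Set J)) :
    ((univ.filter fun f : W × Fin Q → Bool => p (ext W f)).card : ℝ) =
      (iid (unif (Fin Q → Bool)) J).real {s | p s} * Fintype.card (W × Fin Q → Bool) := by
  rw [iid_count hp fun _ => true, Fintype.card_congr (Equiv.curry W (Fin Q) Bool),
    div_mul_cancel₀ _ (Nat.cast_ne_zero.2 Fintype.card_ne_zero), Nat.cast_inj]
  refine card_equiv (Equiv.curry W (Fin Q) Bool) fun f => ?_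
  simp only [mem_filter, mem_univ, true_and]
  rfl

theorem core {J : Type u} {Q d : ℕ} (hQ : 1 ≤ Q) (S : J → Finset J)
    (B : (J → Fin Q → Bool) → J → Prop) (hB : ∀ v, DependsOn (fun s => B s v) (S v : Set J))
    (h0 : ∀ v, v ∈ S v) (h1 : ∀ v, (S v).card ≤ d) (h2 : ∀ a v, a ∈ S v → v ∈ S a) {p : ℝ}
    (hp : ∀ v, (iid (unif (Fin Q → Bool)) J).real {s | B s v} ≤ p)
    (h : 4 * Q * (d : ℝ) ^ 2 * p ≤ 1) (K : Finset J) : ∃ s, ∀ v ∈ K, ¬ B s v := by
  obtain rfl | ⟨v₀, -⟩ := K.eq_empty_or_nonempty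
  · exact ⟨fun _ _ => true, by simp⟩
  have hW : ∀ v ∈ K, S v ⊆ K.biUnion S := fun v hv => subset_biUnion_of_mem S hv
  generalize K.biUnion S = W at hW
  have hp0 : 0 ≤ p := measureReal_nonneg.trans (hp v₀)
  obtain ⟨T, hT⟩ : ∃ T : J → Finset (W × Fin Q), ∀ v x, x ∈ T v ↔ x.1.1 ∈ S v :=
    ⟨fun v => univ.filter fun x => x.1.1 ∈ S v, fun v x => by simp⟩
  suffices h : ∃ f : W × Fin Q → Bool, ∀ v ∈ K, ¬ B (ext W f) v from h.elim fun _ hf => ⟨_, hf⟩
  refine Vale.Agent.P053.local_lemma K T (fun v f => B (ext W f) v) (d * Q)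
    (Nat.mul_pos ((card_pos.2 ⟨v₀, h0 v₀⟩).trans_le (h1 v₀)) hQ)
    (fun v hv => ⟨(⟨v, hW v hv (h0 v)⟩, ⟨0, hQ⟩), (hT _ _).2 (h0 v)⟩) (fun v _ => ?_)
    (fun v hv f g hfg => (hB v fun i hi => ?_).mp) fun x => ?_
  · refine (card_le_card_of_injOn (t := S v ×ˢ univ) (fun x => (x.1.1, x.2))
      (fun x hx => ?_) fun x _ y _ hxy => ?_).trans ?_
    · exact mem_coe.2 (mem_product.2 ⟨(hT _ _).1 hx, mem_univ _⟩)
    · exact Prod.ext (Subtype.ext (Prod.mk.inj hxy).1) (Prod.mk.inj hxy).2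
    · rw [card_product, card_univ, Fintype.card_fin]
      exact Nat.mul_le_mul_right _ (h1 v)
  · funext q
    simp only [ext, dif_pos (hW v hv hi), Function.curry_apply]
    exact hfg _ ((hT _ _).2 hi)
  · refine (mul_le_mul_of_nonneg_left (sum_le_card_nsmul _ _
      (p * Fintype.card (W × Fin Q → Bool)) fun v hv => ?_) (by positivity)).trans ?_
    · rw [count ((hB v).mono (hW v (mem_filter.1 hv).1))]
      exact mul_le_mul_of_nonneg_right (hp v) (Nat.cast_nonneg _)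
    have h4 : ((K.filter fun v => x ∈ T v).card : ℝ) ≤ d := Nat.cast_le.2
      ((card_le_card fun v hv => h2 _ _ ((hT _ _).1 (mem_filter.1 hv).2)).trans (h1 x.1.1))
    rw [nsmul_eq_mul]
    refine (mul_le_mul_of_nonneg_left (mul_le_mul_of_nonneg_right h4 (by positivity))
      (by positivity)).trans ?_
    have h5 := mul_le_mul_of_nonneg_right h (Nat.cast_nonneg (Fintype.card (W × Fin Q → Bool)))
    push_cast
    linarith

theorem greedy (Γ : Gr V) {m Dc : ℕ} (h : Γ.D ^ m ≤ Dc) (W : Finset V) :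
    ∃ c : V → Fin (Dc + 1), ∀ a ∈ W, ∀ b ∈ W, b ∈ Γ.ball m a → c a = c b → a = b := by
  induction W using Finset.induction_on with
  | empty => exact ⟨fun _ => 0, by simp⟩
  | insert x W hx ih =>
    obtain ⟨c, hc⟩ := ih
    obtain ⟨y, -, hy⟩ := exists_mem_notMem_of_card_lt_card (s := (Γ.ball m x).image c) (t := univ)
      (by
        rw [card_univ, Fintype.card_fin]
        exact Nat.lt_succ_of_le (card_image_le.trans ((Gr.card_ball m x).trans h)))
    refine ⟨Function.update c x y, fun a ha b hb h1 h2 => ?_⟩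
    by_cases h3 : a = x <;> by_cases h4 : b = x
    · rw [h3, h4]
    · rw [h3, Function.update_self, Function.update_of_ne h4] at h2
      exact absurd (h2 ▸ mem_image_of_mem c (h3 ▸ h1)) hy
    · rw [h4, Function.update_self, Function.update_of_ne h3] at h2
      exact absurd (h2 ▸ mem_image_of_mem c (h4 ▸ Gr.ball_symm h1)) hy
    · rw [Function.update_of_ne h3, Function.update_of_ne h4] at h2
      exact hc a (mem_of_mem_insert_of_ne ha h3) b (mem_of_mem_insert_of_ne hb h4) h1 h2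

end LLLX

theorem exists_signs (Γ : Gr V) {Q : ℕ} (hQ : 1 ≤ Q) (n : ℕ) (B : (V → Fin Q → Bool) → V → Prop)
    (hB : ∀ v, DependsOn (fun s => B s v) (Γ.ball n v : Set V)) {p : ℝ}
    (hp : ∀ v, (iid (unif (Fin Q → Bool)) V).real {s | B s v} ≤ p)
    (h : 4 * Q * (Γ.D : ℝ) ^ (2 * n) * p ≤ 1) (K : Finset V) : ∃ s, ∀ v ∈ K, ¬ B s v :=
  LLLX.core hQ (Γ.ball n) B hB (Gr.mem_ball_self n) (Gr.card_ball n) (fun _ _ => Gr.ball_symm) hp
    (by rwa [Nat.cast_pow, ← pow_mul']) K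

theorem exists_col (Γ : Gr V) {n Dc : ℕ} (h : Γ.D ^ (2 * n) ≤ Dc) (K : Finset V) :
    ∃ c : V → Fin (Dc + 1), ∀ v ∈ K, Set.InjOn c (Γ.ball n v) := by
  obtain ⟨c, hc⟩ := LLLX.greedy Γ h (K.biUnion (Γ.ball n))
  exact ⟨c, fun v hv a ha b hb => hc a (mem_biUnion.2 ⟨v, hv, ha⟩) b (mem_biUnion.2 ⟨v, hv, hb⟩)
    (Gr.ball_trans' (Gr.ball_symm ha) hb (two_mul n).ge)⟩

theorem bad_prob (Γ : Gr V) (π : Par) (θ : ℝ) {Q Dc : ℕ} (P : ℕ) {p : ℝ}
    (hp : ∀ v, (iid (unif (Fin Q → Bool)) V).real {s | ¬ GoodJ Γ π θ s v} ≤ p) (v : V) :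
    (iid (unif (Alf Q Dc P)) V).real {σ | Bad Γ π θ σ v} ≤
      p + (Γ.D : ℝ) ^ (4 * π.Rs) / (Dc + 1) := by
  refine (measureReal_union_le _ _).trans (add_le_add ?_ ?_)
  · exact (iid_fst (p := fun s => ¬ GoodJ Γ π θ s v)
      fun x y h => congrArg Not (dep_goodJ Γ π θ v h)).trans_le (hp v)
  · have h1 : DependsOn (fun c : V → Fin (Dc + 1) => ¬ Set.InjOn c (Γ.ball (2 * π.Rs) v))
        (Γ.ball (2 * π.Rs) v : Set V) := fun x y h =>
      congrArg Not (propext (Set.EqOn.injOn_iff h))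
    have h2 := prob_col Γ (2 * π.Rs) Dc v
    rw [← mul_assoc, ← iid_fst (Y := ZMod (2 * P + 1)) h1] at h2
    exact (iid_snd (p := fun o : V → Fin (Dc + 1) × ZMod (2 * P + 1) =>
      ¬ Set.InjOn (fun a => (o a).1) (Γ.ball (2 * π.Rs) v))
      fun x y h => h1 fun i hi => congrArg Prod.fst (h i hi)).trans_le h2

theorem exists_good (Γ : Gr V) (π : Par) (θ : ℝ) {Q Dc : ℕ} (hQ : 1 ≤ Q) (P : ℕ) {p : ℝ}
    (hp : ∀ v, (iid (unif (Fin Q → Bool)) V).real {s | ¬ GoodJ Γ π θ s v} ≤ p)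
    (h : 4 * Q * (Γ.D : ℝ) ^ (4 * π.Rs) * p ≤ 1) (h' : Γ.D ^ (4 * π.Rs) ≤ Dc) (K : Finset V) :
    ∃ σ : V → Alf Q Dc P, ∀ v ∈ K, ¬ Bad Γ π θ σ v := by
  obtain ⟨s, hs⟩ := exists_signs Γ hQ (2 * π.Rs) (fun s v => ¬ GoodJ Γ π θ s v)
    (fun v x y h => congrArg Not (dep_goodJ Γ π θ v h)) hp (by rwa [← mul_assoc 2 2]) K
  obtain ⟨c, hc⟩ := exists_col Γ (n := 2 * π.Rs) (Dc := Dc) (by rwa [← mul_assoc 2 2]) K
  exact ⟨fun a => (s a, c a, 0), fun v hv => not_or.2 ⟨hs v hv, not_not.2 (hc v hv)⟩⟩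

end

end Vale.Agent.P184L
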