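import Vale.Agent.P184L.Tot2
import Vale.Agent.P184L.Tot3
import Vale.Agent.P184L.NumB
import Vale.Agent.P184L.NumD
import Vale.Agent.P184L.Heal2
import Vale.Agent.P184L.LLL
import Vale.Agent.P184L.Exc

/-! Existence of the random forms. Hint: `C` = maximum of the constants of `al_est`, `al_low`, `prob_goodJ`; parameters from `exists_num` with `D = A.S.card`; `ρ = ρ0 + 2 Rs`, `W = Rs`. Given `g`: `exists_gok`; `Λ = C (2 P + 2)`; for large `m` (`2 ^ c ≤ m`, `m0` of `PP_le` for `2 Λ`) let `I1`, `I3` be given by `exists_scale` for `X1` and `Λ m`. `heal` for `B = Bad`, radius `2 Rs` (`dep_bad`, `bad_prob`, `exists_good`, `prob_goodJ`; the bound is monotone in `C`) with `δ / ((m + 1) D ^ Rs)`. Put `α o = t.al (fun a => o (a, 0)) (fun a => o (a, idx o a))`. -/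

namespace Vale.Agent.P184L

open Finset MeasureTheory ProbabilityTheory Classical Vale.Agent.P184
open scoped ContDiff

noncomputable section

universe u

variable {G : Type u} [Group G]

theorem pJ_mono {C C' θ : ℝ} (h0 : 0 < C) (h : C ≤ C') (D Q : ℕ) (π : Par) :
    pJ C θ D Q π ≤ pJ C' θ D Q π := by
  unfold pJ
  gcongr

theorem exists_rf (A : Gen G) {z A0 : ℝ} (hz : 1 ≤ z) (hA : 1 ≤ A0) :
    ∃ (ρ W : ℕ) (R : ℝ), 1 ≤ W ∧ 8 ≤ R ∧ ∀ g : G, (∀ y, A.Exc ρ g y → ¬ IsOfFinOrder g) →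
      ∃ m0 : ℕ, ∀ m, m0 ≤ m → ∀ δ : ℝ, 0 < δ → ∃ (lam : ℝ) (J : Type u) (X : Type) (_ : Fintype X)
        (_ : Nonempty X) (_ : MeasurableSpace X) (_ : MeasurableSingletonClass X)
        (α : (J → X) → Fam G), z * (8 * lam) ≤ R * m ∧ RF A g m W R z lam m A0 δ α := by
  obtain ⟨C1, hC1, hest⟩ := al_est G
  obtain ⟨C2, hC2, hlow⟩ := al_low G
  obtain ⟨C3, hC3, hJ⟩ := prob_goodJ.{u}
  obtain ⟨C, hC, k1, k2, k3⟩ : ∃ C : ℝ, 1 ≤ C ∧ C1 ≤ C ∧ C2 ≤ C ∧ C3 ≤ C :=
    ⟨C1 + C2 + C3, by linarith, by linarith, by linarith, by linarith⟩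
  have hD : 1 ≤ A.S.card := card_pos.2 ⟨1, A.h1⟩
  obtain ⟨θ, X1, π, c, i0, p0, n0, Q, Dc, ρ0, N⟩ := exists_num hC hz hA hD
  have hok : A.Ok π := ⟨N.ok, N.hD⟩
  have hb : 8 ≤ π.b := N.ok.1
  refine ⟨ρ0 + 2 * π.Rs, π.Rs, π.R, by unfold Par.Rs; omega, by exact_mod_cast N.ok.2.1,
    fun g hg => ?_⟩
  obtain ⟨ι, M, P, hG⟩ := exists_gok hok (Nat.le_add_left _ _) g hg
  obtain ⟨m1, hm1⟩ := PP_le hC hz N (2 * (C * (2 * P + 2)))
  refine ⟨m1 + 2 ^ c, fun m hm δ hδ => ?_⟩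
  have h2c : 1 ≤ 2 ^ c := Nat.one_le_two_pow
  have hm0 : 1 ≤ m := by omega
  have hmR : (1 : ℝ) ≤ m := by exact_mod_cast hm0
  have hcm : (2 : ℝ) ^ c ≤ m := by exact_mod_cast (show 2 ^ c ≤ m by omega)
  let s : Sc := ⟨c, i0, m, p0, n0⟩
  have hs : s.Ok := ⟨N.hc, N.hi, hm0, N.hp, N.hn⟩
  have hP : (0 : ℝ) ≤ P := Nat.cast_nonneg _
  have hΛ : 2 ≤ C * (2 * P + 2) := by nlinarith
  obtain ⟨I1, a1, a2, a3⟩ := hs.exists_scale N.x1
  obtain ⟨I3, b1, b2, -⟩ := hs.exists_scale (X := C * (2 * P + 2) * m) (by nlinarith)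
  have hy0 : s.y i0 = 2 := hs.y_i0
  have hI1 : I1 ≤ i0 := a3 i0 (by rw [hy0]; exact N.x2)
  have hyle : ∀ i, i ≤ i0 → s.y i ^ s.c ≤ m := fun i hi => by
    refine le_trans ?_ hcm
    rw [← hy0]
    exact pow_le_pow_left₀ (zero_le_one.trans (hs.one_le_y i)) (hs.y_mono hi) _
  have hI3 : i0 ≤ I3 := by
    by_contra h
    have := hyle I3 (by omega)
    nlinarith
  let t : Tot A g := ⟨π, s, I1, I3, Q, Dc, P, M, _, ι, hG⟩
  have hk : 1 ≤ π.k := by have := (Par.Ok.L_ge N.ok).2; omega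
  have hp : ∀ v, (iid (unif (Fin Q → Bool)) (VV g)).real {s | ¬ GoodJ (A.sch g) π θ s v} ≤
      pJ C θ A.S.card Q π := fun v =>
    (hJ _ (A.sch g) π Q θ hk N.hQ N.θ_pos N.θ_le v).trans (pJ_mono (by linarith) k3 _ _ _)
  have hDR : (0 : ℝ) < A.S.card := by exact_mod_cast hD
  obtain ⟨Nn, Rl, idx, i1, i2, i3⟩ := heal (X := Alf Q Dc P) (A.sch g) (2 * π.Rs)
    (Bad (A.sch g) π θ) (dep_bad _ π θ) (bad_prob (A.sch g) π θ P hp) N.j3
    (exists_good (A.sch g) π θ N.hQ P hp N.j1 N.j2)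
    (δ := δ / ((m + 1) * (A.S.card : ℝ) ^ π.Rs)) (by positivity)
  have hγ : ∀ i, C * π.Rs * s.γ i ≤ 1 := fun i => by
    have h1 := (hs.γ_bounds i).2.2.2
    have h2 : (0 : ℝ) < i0 := by have := N.hc; have := N.hi; exact_mod_cast (by omega : 0 < i0)
    have h3 : s.γ i ≤ 2 * c / i0 := h1.trans (by
      change (2 * c : ℝ) / (i0 + i) ≤ _
      gcongr
      exact le_add_of_nonneg_right (Nat.cast_nonneg _))
    calc _ ≤ C * π.Rs * (2 * c / i0) := by gcongr
      _ = C * π.Rs * (2 * c) / i0 := by ring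
      _ ≤ 1 := (div_le_one h2).2 N.hγ
  refine ⟨C * π.b * (m + 1) * ∑ i ∈ range I1, s.γ i, VV g × Fin (Nn + 1), Alf Q Dc P,
    inferInstance, inferInstance, inferInstance, inferInstance,
    fun o => t.al (fun a => o (a, 0)) (fun a => o (a, idx o a)), ?_, fun o => al_pre t hs _ _,
    fun k x => ?_, fun u hu => ?_, fun o k hkm x T hT => ?_, fun x w hw hA0 => ?_⟩
  · have h1 : ∑ i ∈ range I1, s.γ i ≤ 2 * Real.log (2 * X1) :=
      (hs.sum_γ I1).trans (by
        have := pow_pos (zero_lt_one.trans_le (hs.one_le_y I1)) s.c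
        gcongr)
    have h2 : 0 ≤ Real.log (2 * X1) := Real.log_nonneg (by linarith [N.x1])
    calc _ ≤ z * (8 * (C * π.b * (2 * m) * (2 * Real.log (2 * X1)))) := by
          have : 0 ≤ ∑ i ∈ range I1, s.γ i := sum_nonneg fun i _ => (hs.γ_bounds i).1.le
          gcongr
          linarith
      _ = 32 * z * C * π.b * Real.log (2 * X1) * m := by ring
      _ ≤ _ := by gcongr; exact N.l1
  · refine ⟨(univ.biUnion fun i => ((A.sch g).ball π.Rs (pj g (x i))).biUnion
      ((A.sch g).ball Rl)) ×ˢ univ, fun o o' h => ?_⟩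
    have h0 : ∀ i, ∀ a ∈ (A.sch g).ball π.Rs (pj g (x i)), ∀ a' ∈ (A.sch g).ball Rl a, ∀ j,
        o (a', j) = o' (a', j) := fun i a ha a' ha' j =>
      h _ (mem_coe.2 (mem_product.2 ⟨mem_biUnion.2 ⟨i, mem_univ _, mem_biUnion.2 ⟨a, ha, ha'⟩⟩,
        mem_univ _⟩))
    have h1 := alS_congr t hs (σ := fun a => o (a, 0)) (σ' := fun a => o' (a, 0)) (x := x)
      fun i a ha => h0 i a ha a (Gr.mem_ball_self _ _) 0
    have h2 := alS_congr t hs (σ := fun a => o (a, idx o a)) (σ' := fun a => o' (a, idx o' a))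
      (x := x) fun i a ha => by
        have : idx o a = idx o' a := i1 a fun p hp =>
          h0 i a ha p.1 (mem_product.1 (mem_coe.1 hp)).1 p.2
        rw [this]
        exact h0 i a ha a (Gr.mem_ball_self _ _) _
    funext T
    simp only [Tot.al]
    rw [h1, h2]
  · obtain ⟨τ, hτ, hτ'⟩ := alS_left t hu
    have haut : (A.sch g).Aut (act g u hu) := schreier_aut g A.S A.h1 A.hS u hu
    refine ⟨(act g u hu).prodCongr (Equiv.refl _), fun p => τ p.1, fun o k x => ?_⟩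
    have h1 := i2 (act g u hu) τ haut (bad_aut π θ haut τ hτ) o
    funext T
    simp only [Tot.al]
    rw [alI_left t hu, ← hτ', ← hτ']
    congr 3
    funext a
    exact congrArg (fun j => τ a (o (act g u hu a, j))) (h1 a)
  · have h1 : ∀ w, (labV hok g).Step x w → (labG hG).Step x w → Est w z
        (t.al (fun a => o (a, 0)) (fun a => o (a, idx o a)) k x) T
        (C * π.b * (m + 1) * ∑ i ∈ range I1, s.γ i) m := fun w hw hw' =>
      (hest C k1 A g t hs (fun i hi => (div_le_one (by linarith)).2 (hyle i (hi.le.trans hI1))) _ _ z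
        (by linarith) k hkm x w T hw hw' hT).mono le_rfl
        (hm1 m (by omega) hm0 I1 I3 a1 (by linarith))
    exact ⟨fun w hw => h1 _ (labV_step hok g hw) (labG_step hG hw),
      h1 _ (Lab.step_Rs g _ x) (Lab.step_Rs g _ x)⟩
  · calc _ ≤ (iid (unif (Alf Q Dc P)) (VV g × Fin (Nn + 1))).real
          (⋃ v ∈ univ.biUnion fun i => (A.sch g).ball π.Rs (pj g (x i)),
            {o | Bad (A.sch g) π θ (fun a => o (a, 0)) v ∧
              Bad (A.sch g) π θ (fun a => o (a, idx o a)) v}) := by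
          refine measureReal_mono (fun o ho => ?_) (measure_ne_top _ _)
          by_contra h
          refine ho fun T hT => ?_
          have h1 := hlow C k2 A g t hs hI1 hI3 N.hQ hγ
            ((le_div_iff₀ (by linarith)).2 b1) ρ0 θ A0 N.hρ le_rfl N.θ_pos.le N.θ_le
            (fun a => o (a, 0)) (fun a => o (a, idx o a)) m x w T hw hA0 hT fun i v hv hb =>
              h (Set.mem_iUnion₂.2 ⟨v, mem_biUnion.2 ⟨i, mem_univ _, hv⟩, hb⟩)
          have h2 := Err_le hC N hm0 I1 I3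
          change (π.R : ℝ) - s.Err π C θ A0 Q Dc I1 I3 ρ0 ≤ _ at h1
          linarith
      _ ≤ _ := by
          refine (measureReal_biUnion_finset_le _ _).trans ?_
          refine (sum_le_card_nsmul _ _ _ fun v _ => i3 v).trans ?_
          have h1 : ((univ.biUnion fun i => (A.sch g).ball π.Rs (pj g (x i))).card : ℝ) ≤
              (m + 1) * (A.S.card : ℝ) ^ π.Rs := by
            have := card_biUnion_le_card_mul univ (fun i => (A.sch g).ball π.Rs (pj g (x i))) _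
              fun i _ => Gr.card_ball π.Rs (pj g (x i))
            rw [card_univ, Fintype.card_fin] at this
            exact_mod_cast this
          rw [nsmul_eq_mul, mul_div_assoc', div_le_iff₀ (by positivity), mul_comm δ]
          gcongr

end

end Vale.Agent.P184L
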