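import Vale.Agent.P184L.Forms
import Vale.Agent.P184L.Avg
import Vale.Agent.P184L.PaF
import Vale.Agent.P184L.RedC

/-! The l1 Bass conjecture. Hint: `core`: `exists_rf` and `small_of_rf` with `z = (exp 20 / min ε 1) ^ 2`. `bass_fun`: `reduce`, `trace_zero`, `core`; `F = {u | Exc ρ u 1 ∧ IsOfFinOrder u}` (`finite_exc`, `exc_iff`). `bass`: entries of `lp _ 1` are absolutely summable (`lp.memℓp`, `memℓp_gen_iff`), convolution sums converge absolutely because `‖b x‖ ≤ ‖b‖`; `Pi.hasSum`. -/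

namespace Vale.Agent.P184L

open Finset MeasureTheory ProbabilityTheory Classical Vale.Agent.P184
open scoped ContDiff

noncomputable section

universe u

variable {G : Type u} [Group G]

theorem Small.mono {A : Gen G} {g : G} {C1 A0 ε ε' : ℝ} {n : ℕ} (h : Small A g C1 A0 ε n)
    (h0 : 0 ≤ ε) (hε : ε ≤ ε') : Small A g C1 A0 ε' n := by
  obtain ⟨Φ, Tr, s, h1, h2, h3, h4⟩ := h
  refine ⟨Φ, Tr, s, h1, h2, h3, fun x w hw => ⟨(h4 x w hw).1, fun h5 => ((h4 x w hw).2 h5).trans ?_⟩⟩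
  gcongr

theorem core (A : Gen G) {A0 ε : ℝ} (hA : 1 ≤ A0) (hε : 0 < ε) :
    ∃ ρ : ℕ, ∀ g : G, (∀ y, A.Exc ρ g y → ¬ IsOfFinOrder g) →
      ∀ n0, ∃ n, n0 ≤ n ∧ Small A g (Real.exp 20) A0 ε n := by
  have h0 : 0 < min ε 1 := lt_min hε one_pos
  have h1 : 1 ≤ Real.exp 20 / min ε 1 := by
    rw [le_div_iff₀ h0, one_mul]
    exact (min_le_right _ _).trans (Real.one_le_exp (by norm_num))
  have hz : 1 ≤ (Real.exp 20 / min ε 1) ^ 2 := one_le_pow₀ h1
  obtain ⟨ρ, W, R, hW, hR, h⟩ := exists_rf A hz hA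
  refine ⟨ρ, fun g hg n0 => ?_⟩
  obtain ⟨m0, hm⟩ := h g hg
  obtain ⟨n1, hn⟩ := small_of_rf (G := G) W hW R _ A0 hR hz
  obtain ⟨δ, hδ, h2⟩ := hn (n0 + m0 + n1) (by omega)
  obtain ⟨lam, J, X, _, _, _, _, α, h3, h4⟩ := hm (2 * (n0 + m0 + n1) + 1 + 1) (by omega) δ hδ
  refine ⟨n0 + m0 + n1, by omega, (h2 A g lam J X α ?_ ?_).mono (by positivity) ?_⟩
  · convert h3 using 2
    push_cast
    ring
  · convert h4 using 1
    push_cast
    ring
  · rw [Real.sqrt_sq (by positivity), div_div_cancel₀ (Real.exp_pos _).ne']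
    exact min_le_left _ _

theorem bass_fun {q : ℕ} (e : G → Matrix (Fin q) (Fin q) ℂ) (hs : Summable fun h => nm (e h))
    (he : ∀ g, HasSum (fun h => e h * e (h⁻¹ * g)) (e g)) :
    ∃ F : Set G, F.Finite ∧ (∀ u ∈ F, IsOfFinOrder u) ∧ ∀ g : G, (∀ u ∈ F, ¬ IsConj u g) →
      ∑' u : {u // IsConj u g}, (e u).trace = 0 := by
  obtain ⟨W, hW⟩ := reduce e hs he
  obtain ⟨A0, ε, hA, hε, h⟩ := trace_zero W (Real.exp 20)
  obtain ⟨ρ, hρ⟩ := core W.toGen hA hε
  refine ⟨{u | W.toGen.Exc ρ u 1 ∧ IsOfFinOrder u}, (finite_exc W.toGen ρ).subset fun u hu => hu.1,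
    fun u hu => hu.2, fun g hg => ?_⟩
  rw [hW g]
  refine h g (hρ g fun y hy hf => ?_)
  have hc : IsConj (y⁻¹ * g * y) g := isConj_iff.2 ⟨y, by group⟩
  exact hg _ ⟨(exc_iff _ _ _ _).1 hy, hc.symm.isOfFinOrder hf⟩ hc

theorem summable_lp (a : lp (fun _ : G => ℂ) 1) : Summable fun h => ‖a h‖ := by
  simpa using (lp.memℓp a).summable (by simp)

theorem bass (q : ℕ) (e : Matrix (Fin q) (Fin q) (lp (fun _ : G => ℂ) 1))
    (he : ∀ i j g, ∑ k, ∑' h : G, e i k h * e k j (h⁻¹ * g) = e i j g) :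
    ∃ F : Finset (ConjClasses G), (∀ C ∈ F, ∀ g ∈ C.carrier, IsOfFinOrder g) ∧
      ∀ C ∉ F, HasSum (fun g : C.carrier => ∑ i, e i i g) 0 := by
  let f : G → Matrix (Fin q) (Fin q) ℂ := fun h i j => e i j h
  have hs : Summable fun h => nm (f h) :=
    summable_sum fun i _ => summable_sum fun j _ => summable_lp (e i j)
  have hf : ∀ g, HasSum (fun h => f h * f (h⁻¹ * g)) (f g) := by
    intro g
    refine Pi.hasSum.2 fun i => Pi.hasSum.2 fun j => ?_
    change HasSum (fun h => ∑ k, e i k h * e k j (h⁻¹ * g)) (e i j g)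
    rw [← he i j g]
    refine hasSum_sum fun k _ => Summable.hasSum ?_
    refine Summable.of_norm_bounded ((summable_lp (e i k)).mul_right ‖e k j‖) fun h => ?_
    rw [norm_mul]
    exact mul_le_mul_of_nonneg_left (lp.norm_apply_le_norm one_ne_zero _ _) (norm_nonneg _)
  obtain ⟨F, hF, h1, h2⟩ := bass_fun f hs hf
  refine ⟨hF.toFinset.image ConjClasses.mk, fun C hC g hg => ?_, fun C hC => ?_⟩
  · obtain ⟨u, hu, rfl⟩ := mem_image.1 hC
    exact (ConjClasses.mk_eq_mk_iff_isConj.1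
      (ConjClasses.mem_carrier_iff_mk_eq.1 hg)).symm.isOfFinOrder (h1 u (hF.mem_toFinset.1 hu))
  · obtain ⟨g, rfl⟩ := ConjClasses.exists_rep C
    have h3 := h2 g fun u hu hc => hC (mem_image.2
      ⟨u, hF.mem_toFinset.2 hu, ConjClasses.mk_eq_mk_iff_isConj.2 hc⟩)
    have h4 : (ConjClasses.mk g).carrier = {u | IsConj u g} := by
      ext u
      rw [ConjClasses.mem_carrier_iff_mk_eq, ConjClasses.mk_eq_mk_iff_isConj]
      rfl
    rw [h4, ← h3]
    exact (summable_trace hs fun u => IsConj u g).1.hasSum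

end

end Vale.Agent.P184L
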